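import Vale.Agent.P143.Defs
import Vale.Agent.P143.Trees
import Vale.Agent.P143.Natural

/-!
# The free uniform spanning forest is a factor of IID

There is one measurable, isomorphism-equivariant rule which, applied to i.i.d. uniform vertex
labels on any connected locally finite countable graph, outputs the free uniform spanning forest.
In particular the forest of every Cayley graph is a factor of IID for the acting group.
-/

namespace Vale.Agent.Results.P143.FactorOfIID

open MeasureTheory
open scoped unitInterval
open Vale.Agent.P143

theorem result :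
    ∃ Φ : ∀ V : Type, SimpleGraph V → (V → I) → Sym2 V → Bool,
      (∀ (V W : Type) [Countable V] [Countable W] (G : SimpleGraph V) (G' : SimpleGraph W)
        (φ : G ≃g G') (U : W → I) (e : Sym2 V),
          Φ W G' U (e.map φ) = Φ V G (fun v => U (φ v)) e) ∧
      (∀ (V : Type) [Countable V],
        Measurable (fun p : (V → V → Bool) × (V → I) =>
          Φ V (SimpleGraph.fromRel fun a b => p.1 a b = true) p.2)) ∧
      (∀ (V : Type) [Countable V] (G : SimpleGraph V),
        G.Connected → (∀ v, (G.neighborSet v).Finite) →
          Measurable (Φ V G) ∧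
          IsFUSF G ((Measure.infinitePi fun _ : V => (volume : Measure I)).map (Φ V G))) ∧
      (∀ (Γ : Type) [Group Γ] [Countable Γ] (S : Set Γ),
        S.Finite → Subgroup.closure S = ⊤ →
          Measurable (Φ Γ (SimpleGraph.mulCayley S)) ∧
          (∀ (γ : Γ) (U : Γ → I) (e : Sym2 Γ),
            Φ Γ (SimpleGraph.mulCayley S) (fun v => U (γ⁻¹ * v)) (e.map fun v => γ * v)
              = Φ Γ (SimpleGraph.mulCayley S) U e) ∧
          IsFUSF (SimpleGraph.mulCayley S)
            ((Measure.infinitePi fun _ : Γ => (volume : Measure I)).map
              (Φ Γ (SimpleGraph.mulCayley S)))) := by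
  have hlaw : ∀ (V : Type) [Countable V] (G : SimpleGraph V),
      G.Connected → (∀ v, (G.neighborSet v).Finite) →
        IsFUSF G ((Measure.infinitePi fun _ : V => (volume : Measure I)).map (fusfFactor G)) := by
    intro V _ G hc hlf
    refine ⟨Measure.isProbabilityMeasure_map (measurable_fusfFactor G).aemeasurable,
      exists_exhaustion hc, fun H hH A η => ?_⟩
    have h := factor_law hlf (edgeExh_of_exhaustion hH) A η
    refine (h.congr fun n => ?_)
    rw [ustProb_eq (hH.2.1 n).1 (hH.2.1 n).2]
  refine ⟨fun V G U => fusfFactor G U, ?_, ?_, ?_, ?_⟩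
  · intro V W _ _ G G' φ U e
    exact fusfFactor_map φ U e
  · intro V _
    refine measurable_fusfFactor_param (fun a b => ?_) measurable_snd
    have hab : ∀ x y : V, MeasurableSet {p : (V → V → Bool) × (V → I) | p.1 x y = true} := by
      intro x y
      have h : Measurable fun p : (V → V → Bool) × (V → I) => p.1 x y :=
        ((measurable_pi_apply (X := fun _ : V => Bool) y).comp
          (measurable_pi_apply (X := fun _ : V => V → Bool) x)).comp measurable_fst
      exact h (measurableSet_singleton true)
    simp only [SimpleGraph.fromRel_adj]
    exact (MeasurableSet.const _).inter ((hab a b).union (hab b a))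
  · intro V _ G hc hlf
    exact ⟨measurable_fusfFactor G, hlaw V G hc hlf⟩
  · intro Γ _ _ S hS hgen
    refine ⟨measurable_fusfFactor _, fun γ U e => ?_,
      hlaw Γ _ (cayley_connected hgen) (cayley_locallyFinite hS)⟩
    have h := fusfFactor_map (Vale.Agent.P143.translate S γ) (fun v => U (γ⁻¹ * v)) e
    have h1 : (fun v => U (γ⁻¹ * (Vale.Agent.P143.translate S γ) v)) = U := by
      funext v
      exact congrArg U (inv_mul_cancel_left γ v)
    simp only [h1] at h
    exact h

end Vale.Agent.Results.P143.FactorOfIID
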